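import Vale.Agent.P297A41.Rows
import Vale.Agent.P009S38.Sec
import Vale.Agent.P009S24.Emb
import Vale.Agent.P009S90.Sub
import Vale.Agent.P009S59.Back
import Vale.Agent.P297L93.IntG

/-!
# The scheme of a projective variety
-/

open CategoryTheory AlgebraicGeometry MonoidalCategory

namespace Vale.Agent.P297A

open Vale.Agent.P009S (VA ev)
open Vale.Agent.P009.AV (PP IrrClosed IsZar)
open Vale.Agent.P297M (Pj str IsPoint gr)

attribute [local instance] MvPolynomial.gradedAlgebra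

theorem var (hV : VAP) (hP : PTS) : VAR := by
  rintro ι _ Y ⟨⟨I, hI, hY⟩, hne, hirr⟩
  let W : (Pj ι).Opens := ⨆ F : I, Proj.basicOpen (gr ι) F.1
  let Z : TopologicalSpace.Closeds (Pj ι) := ⟨(W : Set (Pj ι))ᶜ, W.isOpen.isClosed_compl⟩
  have hZ : ∀ (y : Pj ι) (P : PP ℂ ι), IsPoint y P → (y ∈ (Z : Set (Pj ι)) ↔ P ∈ Y) := by
    intro y P h
    rw [hY]
    refine ⟨fun hy F hF => by_contra fun h' => hy ?_, fun hy hw => ?_⟩
    · obtain ⟨d, hd⟩ := hI F hF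
      exact TopologicalSpace.Opens.mem_iSup.2 ⟨⟨F, hF⟩, (h d F hd).2 h'⟩
    · obtain ⟨⟨F, hF⟩, h'⟩ := TopologicalSpace.Opens.mem_iSup.1 hw
      obtain ⟨d, hd⟩ := hI F hF
      exact (h d F hd).1 h' (hy F hF)
  let J := Scheme.IdealSheafData.vanishingIdeal Z
  let G : Sch := Over.mk (J.subschemeι ≫ str ι)
  let i : G ⟶ Over.mk (str ι) := Over.homMk J.subschemeι
  have hi : IsClosedImmersion i.left := inferInstanceAs (IsClosedImmersion J.subschemeι)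
  have hr : Set.range i.left = (Z : Set (Pj ι)) := J.range_subschemeι
  have hs : IsProper (str ι) := P297G93.isProper_proj _
  have hp : IsProper G.hom := inferInstanceAs (IsProper (J.subschemeι ≫ str ι))
  obtain ⟨D, e, he, hpt⟩ := hV G ι i.left hi rfl
  obtain ⟨hinj, hop⟩ := P009S.emb P009S.sec ℂ G ι ι D e he
  have hrange : Set.range e = Y := by
    refine Set.Subset.antisymm ?_ fun P hPY => ?_
    · rintro _ ⟨x, rfl⟩
      exact (hZ _ _ (hpt x)).1 (hr ▸ ⟨_, rfl⟩)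
    · obtain ⟨x, hx⟩ := (hP ι).1 P
      obtain ⟨y, rfl⟩ := (P009S.abs59_pt i x).1 (hr ▸ (hZ _ _ hx).2 hPY)
      exact ⟨y, (hP ι).2.1 _ _ _ (hpt y) hx⟩
  have hred : IsReduced G.left := P009S.abs_red Z
  have hemp : ∀ (A : G.left.Opens) (Y₁ : Set (PP ℂ ι)),
      P009S.pt ⁻¹' (A : Set G.left) = e ⁻¹' Y₁ᶜ → Y ⊆ Y₁ → A ≤ ⊥ := fun A Y₁ h1 h2 =>
    P009S.sec_le A ⊥ fun x hx =>
      ((Set.ext_iff.1 h1 x).1 hx (h2 (hrange ▸ ⟨x, rfl⟩))).elim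
  have hpre : IsPreirreducible (Set.univ : Set G.left) := by
    rintro A B hA hB ⟨a, -, ha⟩ ⟨b, -, hb⟩
    by_contra hn
    obtain ⟨Y₁, ⟨I₁, h1, e1⟩, f1⟩ := (hop _).1 ⟨⟨A, hA⟩, rfl⟩
    obtain ⟨Y₂, ⟨I₂, h2, e2⟩, f2⟩ := (hop _).1 ⟨⟨B, hB⟩, rfl⟩
    have hsub : Y ⊆ Y₁ ∪ Y₂ := by
      rw [← hrange]
      rintro _ ⟨x, rfl⟩
      by_contra hx
      exact hn ⟨P009S.pt x, trivial, (Set.ext_iff.1 f1 x).2 fun h => hx (Or.inl h),
        (Set.ext_iff.1 f2 x).2 fun h => hx (Or.inr h)⟩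
    rcases hirr Y₁ Y₂ ⟨I₁, h1, fun P => Set.ext_iff.1 e1 P⟩ ⟨I₂, h2, fun P => Set.ext_iff.1 e2 P⟩
      hsub with h | h
    · exact hemp ⟨A, hA⟩ Y₁ f1 h ha
    · exact hemp ⟨B, hB⟩ Y₂ f2 h hb
  have h1 : PreirreducibleSpace G.left := ⟨hpre⟩
  have h2 : IrreducibleSpace G.left := by
    obtain ⟨P, hPY⟩ := hne
    obtain ⟨x, -⟩ := hrange.ge hPY
    exact ⟨⟨P009S.pt x⟩⟩
  exact ⟨G, hp, isIntegral_of_irreducibleSpace_of_isReduced _, D, e, he, hinj, hrange⟩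

end Vale.Agent.P297A
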